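import Mathlib

/-!
P204: abstract duality. From the absence of a positive element in a subspace we get a positive
functional killing it, and from a lifting estimate a second functional completing it to one
killing all closed elements.
-/

namespace Vale.Agent.P204.Full.Dual

variable {W : Type*} [AddCommGroup W] [Module ℝ W]

/-- A gauge shifted by `F`: sublinear, and translation along `F` adds the coefficient. -/
structure ShiftGauge (q : W → ℝ) (F : W) : Prop where
  hom : ∀ c : ℝ, 0 < c → ∀ w, q (c • w) = c * q w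
  add : ∀ v w, q (v + w) ≤ q v + q w
  shift : ∀ (a : ℝ) (w : W), q (w + a • F) = q w + a

lemma ShiftGauge.zero {q : W → ℝ} {F : W} (h : ShiftGauge q F) : q 0 = 0 := by
  have := h.hom 2 two_pos 0
  rw [smul_zero] at this
  linarith

lemma ShiftGauge.self {q : W → ℝ} {F : W} (h : ShiftGauge q F) : q F = 1 := by
  have := h.shift 1 0
  simpa [h.zero] using this

/-- If no element of `Z` is positive (`q (-z) < 0`), some positive normalised functional kills `Z`. -/
theorem exists_positive_functional {q : W → ℝ} {F : W} (h : ShiftGauge q F) (Z : Submodule ℝ W)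
    (hZ : ∀ z ∈ Z, 0 ≤ q (-z)) :
    ∃ T : W →ₗ[ℝ] ℝ, (∀ z ∈ Z, T z = 0) ∧ T F = 1 ∧ (∀ w, T w ≤ q w) ∧
      (∀ w, q (-w) ≤ 0 → 0 ≤ T w) ∧ ∀ w C, q w ≤ C → q (-w) ≤ C → |T w| ≤ C := by
  classical
  have hF : F ∉ Z := fun hm => by
    have h1 := hZ F hm
    have h2 := h.shift (-1) 0
    rw [h.zero, neg_one_smul, zero_add] at h2
    linarith
  let f0 : W →ₗ.[ℝ] ℝ := LinearPMap.mk Z 0
  let f := f0.supSpanSingleton F (1 : ℝ) hF
  have hle : ∀ x : f.domain, f x ≤ q x := by
    rintro ⟨x, hx⟩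
    obtain ⟨z, hz, y, hy, rfl⟩ := Submodule.mem_sup.1 hx
    obtain ⟨c, rfl⟩ := Submodule.mem_span_singleton.1 hy
    rw [LinearPMap.supSpanSingleton_apply_mk _ _ _ _ _ hz, h.shift c z]
    have h1 := hZ (-z) (Z.neg_mem hz)
    rw [neg_neg] at h1
    simp [f0]
    linarith
  obtain ⟨T, hTf, hTq⟩ := exists_extension_of_le_sublinear f q h.hom h.add hle
  have hTZ : ∀ z ∈ Z, T z = 0 := fun z hz => by
    have hm : z ∈ f.domain := Submodule.mem_sup_left hz
    have e1 := hTf ⟨z, hm⟩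
    have e2 : f ⟨z + (0 : ℝ) • F, by simpa using hm⟩ = f0 ⟨z, hz⟩ + (0 : ℝ) • (1 : ℝ) :=
      LinearPMap.supSpanSingleton_apply_mk f0 F (1 : ℝ) hF z hz 0
    simp only [zero_smul, add_zero] at e2
    simpa [f0] using e1.trans e2
  have hTF : T F = 1 := by
    have hm : F ∈ f.domain := Submodule.mem_sup_right (Submodule.mem_span_singleton_self F)
    have e1 := hTf ⟨F, hm⟩
    have e2 : f ⟨0 + (1 : ℝ) • F, by simpa using hm⟩ = f0 ⟨0, Z.zero_mem⟩ + (1 : ℝ) • (1 : ℝ) :=
      LinearPMap.supSpanSingleton_apply_mk f0 F (1 : ℝ) hF 0 Z.zero_mem 1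
    simp only [one_smul, zero_add] at e2
    simpa [f0] using e1.trans e2
  refine ⟨T, hTZ, hTF, hTq, fun w hw => ?_, fun w C h1 h2 => abs_le.2 ⟨?_, (hTq w).trans h1⟩⟩
  · have := (hTq (-w)).trans hw
    rw [map_neg] at this
    linarith
  · have := (hTq (-w)).trans h2
    rw [map_neg] at this
    linarith

variable {Ω V : Type*} [AddCommGroup Ω] [Module ℝ Ω] [AddCommGroup V] [Module ℝ V]

/-- Completion of a functional `T` on the invariant parts by one on the anti-invariant parts. -/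
theorem exists_complement (Zc : Submodule ℝ Ω) (pp : Ω →ₗ[ℝ] W) (pm : Ω →ₗ[ℝ] V)
    (T : W →ₗ[ℝ] ℝ) (hT : ∀ w ∈ Zc, pm w = 0 → T (pp w) = 0) (N : V → ℝ)
    (Nhom : ∀ c : ℝ, 0 < c → ∀ v, N (c • v) = c * N v) (Nadd : ∀ u v, N (u + v) ≤ N u + N v)
    (hlift : ∀ w ∈ Zc, ∃ eta ∈ Zc, pm eta = pm w ∧ |T (pp eta)| ≤ N (pm w)) :
    ∃ phi : V →ₗ[ℝ] ℝ, (∀ w ∈ Zc, T (pp w) + phi (pm w) = 0) ∧ (∀ v, phi v ≤ N v) ∧
      ∀ v, |phi v| ≤ max (N v) (N (-v)) := by
  classical
  set g : Zc →ₗ[ℝ] ℝ := (T.comp pp).comp Zc.subtype with hg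
  set P : Zc →ₗ[ℝ] V := pm.comp Zc.subtype with hP
  have hker : ∀ w : Zc, P w = 0 → g w = 0 := fun w hw => hT w w.2 hw
  have hwell : ∀ a b : Zc, P a = P b → g a = g b := fun a b hab => by
    have := hker (a - b) (by rw [map_sub, hab, sub_self])
    rwa [map_sub, sub_eq_zero] at this
  have hex : ∀ y : LinearMap.range P, ∃ w, P w = y := fun y => y.2
  choose sec hsec using hex
  let f : V →ₗ.[ℝ] ℝ := LinearPMap.mk (LinearMap.range P)
    { toFun := fun y => -g (sec y)
      map_add' := fun a b => by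
        have := hwell (sec (a + b)) (sec a + sec b) (by rw [map_add, hsec, hsec, hsec]; simp)
        rw [this, map_add, neg_add]
      map_smul' := fun c a => by
        have := hwell (sec (c • a)) (c • sec a) (by rw [map_smul, hsec, hsec]; simp)
        rw [this, map_smul]; simp }
  have hle : ∀ y : f.domain, f y ≤ N y := by
    intro y
    obtain ⟨eta, hem, he1, he2⟩ := hlift _ (sec y).2
    have e : g ⟨eta, hem⟩ = g (sec y) := hwell _ _ he1
    have ey : pm (sec y : Ω) = (y : V) := hsec y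
    change -g (sec y) ≤ N y
    rw [← e, ← ey]
    exact (neg_le_abs _).trans he2
  obtain ⟨phi, hphi, hN⟩ := exists_extension_of_le_sublinear f N Nhom Nadd hle
  refine ⟨phi, fun w hw => ?_, hN, fun v => abs_le.2 ⟨?_, (hN v).trans (le_max_left _ _)⟩⟩
  · have hm : P ⟨w, hw⟩ ∈ LinearMap.range P := ⟨_, rfl⟩
    have e := hwell (sec ⟨_, hm⟩) ⟨w, hw⟩ (hsec _)
    have e2 : phi (pm w) = -g (sec ⟨_, hm⟩) := hphi ⟨_, hm⟩
    rw [e2, e]
    exact add_neg_cancel _
  · have := (hN (-v)).trans (le_max_right (N v) _)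
    rw [map_neg] at this
    linarith

end Vale.Agent.P204.Full.Dual
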