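import Vale.Agent.P204.Full.Global.Chart
import Vale.Agent.P204.Full.Dual.Extend

/-!
P204, duality: evaluation of two-forms on complex lines, measured by a positive form, and the
resulting shifted gauge (helper76).
-/

namespace Vale.Agent.P204.Full.Dual

open Set Metric
open scoped Manifold ContDiff

universe u

variable {M : Type u} [TopologicalSpace M] [ChartedSpace E4 M]

/-- In a compact piece of a chart a two-tensor evaluated on complex lines is dominated by its
coefficients times a positive one. -/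
theorem exists_chart_bound [IsManifold (𝓡 4) ∞ M] {c : OpenPartialHomeomorph M E4}
    (hc : IsChart c) {J : M → E4 → E4} (hJ : ∀ x, IsLinearMap ℝ (J x))
    {K : Set E4} (hK : IsCompact K) (hKc : K ⊆ c.target)
    (hA : ∀ p a, ContinuousOn (fun y => readJ c J y p a) K)
    {F : M → E4 → E4 → ℝ} (hF : IsAltField F) (hFc : ContinuousOn (readC c F) K)
    (hFp : ∀ x v, v ≠ 0 → 0 < F x v (J x v)) :
    ∃ C, 0 ≤ C ∧ ∀ w : M → E4 → E4 → ℝ, IsAltField w → ∀ y ∈ K, ∀ B : ℝ, ‖readC c w y‖ ≤ B →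
      ∀ v, |w (c.symm y) v (J (c.symm y) v)| ≤ C * B * F (c.symm y) v (J (c.symm y) v) := by
  classical
  let g : C2 → Matrix (Fin 4) (Fin 4) ℝ → E4 → ℝ := fun R A ξ =>
    ∑ a, ∑ b, ξ a * (∑ p, A b p * ξ p) * R a b
  have hev : ∀ w : M → E4 → E4 → ℝ, IsAltField w → ∀ y ∈ c.target, ∀ ξ,
      g (readC c w y) (readJ c J y) ξ
        = w (c.symm y) (dInv c y ξ) (J (c.symm y) (dInv c y ξ)) := by
    intro w hw y hy ξ
    let L : E4 →ₗ[ℝ] E4 := (dMapL c (c.symm y)).toLinearMap ∘ₗ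
      ((hJ (c.symm y)).mk' _ ∘ₗ (dInvL c y).toLinearMap)
    have hL : ∀ z, L z = dMap c (c.symm y) (J (c.symm y) (dInv c y z)) := fun z => rfl
    have hb : dInv c y (L ξ) = J (c.symm y) (dInv c y ξ) := by
      have h := dInv_dMap hc (c.map_target hy) (J (c.symm y) (dInv c y ξ))
      rw [c.right_inv hy] at h
      rw [hL]; exact h
    rw [← hb, hw.dInv_eq_sum]
    have hco : ∀ b, L ξ b = ∑ p, readJ c J y b p * ξ p := fun b => by
      have h1 : L ξ = ∑ p, ξ p • L (ev4 p) := by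
        conv_lhs => rw [← sum_ev4 ξ]
        simp [map_sum]
      rw [h1]
      simp only [WithLp.ofLp_sum, Finset.sum_apply, PiLp.smul_apply, smul_eq_mul]
      exact Finset.sum_congr rfl fun p _ => mul_comm _ _
    simp only [g, hco]
  have hgs : ∀ R A (r : ℝ) ξ, g R A (r • ξ) = r ^ 2 * g R A ξ := by
    intro R A r ξ
    simp only [g, PiLp.smul_apply, smul_eq_mul, Finset.mul_sum, Finset.sum_mul]
    refine Finset.sum_congr rfl fun a _ => Finset.sum_congr rfl fun b _ =>
      Finset.sum_congr rfl fun p _ => ?_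
    ring
  rcases K.eq_empty_or_nonempty with rfl | hne
  · exact ⟨0, le_rfl, fun w _ y hy => absurd hy (by simp)⟩
  set P : Set (E4 × E4) := K ×ˢ sphere (0 : E4) 1 with hP
  have hPc : IsCompact P := hK.prod (isCompact_sphere 0 1)
  have hPn : P.Nonempty := hne.prod (NormedSpace.sphere_nonempty.2 zero_le_one)
  have hmaps : MapsTo (Prod.fst : E4 × E4 → E4) P K := fun z hz => hz.1
  have hR : ∀ a b, ContinuousOn (fun z : E4 × E4 => readC c F z.1 a b) P := fun a b =>
    (continuous_apply_apply a b).comp_continuousOn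
      (hFc.comp continuous_fst.continuousOn hmaps)
  have hA' : ∀ b p, ContinuousOn (fun z : E4 × E4 => readJ c J z.1 b p) P := fun b p =>
    (hA b p).comp continuous_fst.continuousOn hmaps
  have hξ : ∀ p, ContinuousOn (fun z : E4 × E4 => z.2 p) P := fun p =>
    ((PiLp.continuous_apply 2 _ p).comp continuous_snd).continuousOn
  have hgc : ContinuousOn (fun z : E4 × E4 => g (readC c F z.1) (readJ c J z.1) z.2) P :=
    continuousOn_finsetSum _ fun a _ => continuousOn_finsetSum _ fun b _ =>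
      ((hξ a).mul (continuousOn_finsetSum _ fun p _ => (hA' b p).mul (hξ p))).mul (hR a b)
  obtain ⟨z0, hz0, hmin⟩ := hPc.exists_isMinOn hPn hgc
  have hm : 0 < g (readC c F z0.1) (readJ c J z0.1) z0.2 := by
    rw [hev F hF z0.1 (hKc hz0.1) z0.2]
    refine hFp _ _ fun h => ?_
    have h' := (dInv_injective hc (hKc hz0.1)) (h.trans (map_zero (dInvL c z0.1)).symm)
    have h2 := mem_sphere_zero_iff_norm.1 hz0.2
    rw [h', norm_zero] at h2
    exact zero_ne_one h2
  obtain ⟨A0, hA0⟩ : ∃ A0, ∀ y ∈ K, ∀ b p, |readJ c J y b p| ≤ A0 := by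
    choose Bd hBd using fun q : Fin 4 × Fin 4 => hK.exists_bound_of_continuousOn (hA q.1 q.2)
    refine ⟨∑ q, max (Bd q) 0, fun y hy b p => ?_⟩
    refine ((Real.norm_eq_abs _).symm.le.trans ((hBd (b, p) y hy).trans (le_max_left _ 0))).trans ?_
    exact Finset.single_le_sum (f := fun q => max (Bd q) 0) (fun q _ => le_max_right _ _)
      (Finset.mem_univ (b, p))
  set m := g (readC c F z0.1) (readJ c J z0.1) z0.2 with hmdef
  have hA0' : 0 ≤ A0 := (abs_nonneg _).trans (hA0 _ hne.choose_spec 0 0)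
  refine ⟨64 * A0 / m, by positivity, fun w hw y hy B hB v => ?_⟩
  have hB0 : 0 ≤ B := (norm_nonneg _).trans hB
  set ξ := dMap c (c.symm y) v with hξdef
  have hv : dInv c y ξ = v := by
    have h := dInv_dMap hc (c.map_target (hKc hy)) v
    rwa [c.right_inv (hKc hy)] at h
  have hlow : m * ‖ξ‖ ^ 2 ≤ F (c.symm y) v (J (c.symm y) v) := by
    conv_rhs => rw [← hv, ← hev F hF y (hKc hy) ξ]
    rcases eq_or_ne ξ 0 with h | h
    · simp [h, g]
    · have hn : 0 < ‖ξ‖ := norm_pos_iff.2 h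
      have hu : ‖ξ‖⁻¹ • ξ ∈ sphere (0 : E4) 1 := by
        simp [norm_smul, hn.ne']
      have e : ξ = ‖ξ‖ • (‖ξ‖⁻¹ • ξ) := by rw [smul_smul, mul_inv_cancel₀ hn.ne', one_smul]
      have h1 : m ≤ g (readC c F y) (readJ c J y) (‖ξ‖⁻¹ • ξ) :=
        hmin (show (y, ‖ξ‖⁻¹ • ξ) ∈ P from ⟨hy, hu⟩)
      conv_rhs => rw [e, hgs]
      rw [mul_comm]
      exact mul_le_mul_of_nonneg_left h1 (sq_nonneg _)
  have hup : |g (readC c w y) (readJ c J y) ξ| ≤ 64 * A0 * B * ‖ξ‖ ^ 2 := by
    have hc' : ∀ p, |ξ p| ≤ ‖ξ‖ := fun p => by simpa using PiLp.norm_apply_le ξ p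
    have hR' : ∀ a b, |readC c w y a b| ≤ B := fun a b =>
      ((Real.norm_eq_abs _).symm.le.trans ((norm_le_pi_norm _ b).trans (norm_le_pi_norm _ a))).trans
        hB
    calc |g (readC c w y) (readJ c J y) ξ|
        ≤ ∑ a : Fin 4, ∑ b : Fin 4, ‖ξ‖ * (∑ _p : Fin 4, A0 * ‖ξ‖) * B := by
          refine (Finset.abs_sum_le_sum_abs _ _).trans (Finset.sum_le_sum fun a _ =>
            (Finset.abs_sum_le_sum_abs _ _).trans (Finset.sum_le_sum fun b _ => ?_))
          rw [abs_mul, abs_mul]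
          gcongr
          · exact hc' a
          · refine (Finset.abs_sum_le_sum_abs _ _).trans (Finset.sum_le_sum fun p _ => ?_)
            rw [abs_mul]
            exact mul_le_mul (hA0 y hy b p) (hc' p) (abs_nonneg _) hA0'
          · exact hR' a b
      _ = 64 * A0 * B * ‖ξ‖ ^ 2 := by simp; ring
  conv_lhs => rw [← hv, ← hev w hw y (hKc hy) ξ]
  refine hup.trans ?_
  calc 64 * A0 * B * ‖ξ‖ ^ 2 = 64 * A0 / m * B * (m * ‖ξ‖ ^ 2) := by field_simp
    _ ≤ _ := mul_le_mul_of_nonneg_left hlow (by positivity)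

/-- evaluation on the complex line of a nonzero vector, relative to `F` -/
noncomputable def evalQ (S : Setup M) (w : Form M) (i : {p : M × E4 // p.2 ≠ 0}) : ℝ :=
  w.1 i.1.1 i.1.2 (S.J i.1.1 i.1.2) / S.F.1 i.1.1 i.1.2 (S.J i.1.1 i.1.2)

/-- the supremum of the evaluations -/
noncomputable def gauge (S : Setup M) (w : Form M) : ℝ := ⨆ i, evalQ S w i

variable (S : Setup M)

theorem evalQ_add (v w : Form M) (i) : evalQ S (v + w) i = evalQ S v i + evalQ S w i := by
  simp [evalQ, add_div]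

theorem evalQ_smul (c : ℝ) (w : Form M) (i) : evalQ S (c • w) i = c * evalQ S w i := by
  simp [evalQ, mul_div_assoc]

theorem evalQ_F (i : {p : M × E4 // p.2 ≠ 0}) : evalQ S S.F i = 1 :=
  div_self (S.F_pos _ _ i.2).ne'

theorem abs_evalQ_le {w : Form M} {B : ℝ}
    (h : ∀ x v, |w.1 x v (S.J x v)| ≤ B * S.F.1 x v (S.J x v)) (i) : |evalQ S w i| ≤ B := by
  rw [evalQ, abs_div, abs_of_pos (S.F_pos _ _ i.2), div_le_iff₀ (S.F_pos _ _ i.2)]
  exact h _ _

instance nonempty_lines [Nonempty M] : Nonempty {p : M × E4 // p.2 ≠ 0} :=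
  ⟨⟨(Classical.arbitrary M, ev4 0), by simp [ev4]⟩⟩

theorem shiftGauge_gauge [Nonempty M]
    (hb : ∀ w : Form M, BddAbove (range (evalQ S w))) : ShiftGauge (gauge S) S.F where
  hom c hc w := by
    simp only [gauge, evalQ_smul]
    exact (Real.mul_iSup_of_nonneg hc.le _).symm
  add v w := ciSup_le fun i => by
    rw [evalQ_add]
    exact add_le_add (le_ciSup (hb v) i) (le_ciSup (hb w) i)
  shift a w := by
    simp only [gauge, evalQ_add, evalQ_smul, evalQ_F, mul_one]
    exact (ciSup_add (hb w) a).symm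

theorem bddAbove_evalQ {w : Form M} {B : ℝ}
    (h : ∀ x v, |w.1 x v (S.J x v)| ≤ B * S.F.1 x v (S.J x v)) : BddAbove (range (evalQ S w)) :=
  ⟨B, by rintro _ ⟨i, rfl⟩; exact (le_abs_self _).trans (abs_evalQ_le S h i)⟩

theorem gauge_le [Nonempty M] {w : Form M} {B : ℝ}
    (h : ∀ x v, |w.1 x v (S.J x v)| ≤ B * S.F.1 x v (S.J x v)) : gauge S w ≤ B :=
  ciSup_le fun i => (le_abs_self _).trans (abs_evalQ_le S h i)

theorem gauge_neg_nonpos [Nonempty M] {w : Form M} (h : NonnegJ S.J w.1) : gauge S (-w) ≤ 0 :=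
  ciSup_le fun i => by
    rw [← neg_one_smul ℝ w, evalQ_smul, neg_one_mul, neg_nonpos]
    exact div_nonneg (h _ _) (S.F_pos _ _ i.2).le

/-- A negative gauge makes `-w` positive on all complex lines. -/
theorem pos_of_gauge_neg {w : Form M} (hb : BddAbove (range (evalQ S w))) (h : gauge S w < 0)
    {x : M} {v : E4} (hv : v ≠ 0) : w.1 x v (S.J x v) < 0 := by
  have h1 : evalQ S w ⟨(x, v), hv⟩ < 0 := (le_ciSup hb _).trans_lt h
  rcases div_neg_iff.1 h1 with h2 | h2
  · exact absurd h2.2 (S.F_pos x v hv).not_gt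
  · exact h2.1

end Vale.Agent.P204.Full.Dual
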