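import Vale.Agent.P204.Full.Global.Norms
import Vale.Agent.P204.Full.Dual.Gauge
import Vale.Agent.P204.Full.Spec

/-!
P204, step 0: without a compatible form there is an obstruction current.
-/

namespace Vale.Agent.P204.Full.Dual

open Set Metric
open scoped Manifold ContDiff

universe u

variable {M : Type u} [TopologicalSpace M] [ChartedSpace E4 M] (S : Setup M)

theorem apply_J_p11 {w : M → E4 → E4 → ℝ} (hw : IsAltField w) (x : M) (v : E4) :
    p11 S.J w x v (S.J x v) = w x v (S.J x v) := by
  simp only [p11, S.isJ.2.1]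
  rw [show -v = (-1 : ℝ) • v by simp, (hw.1 x _).map_smul, hw.2 x v (S.J x v)]
  simp only [smul_eq_mul]
  ring

variable [IsManifold (𝓡 4) ∞ M]

theorem exists_eval_bound : ∃ C, 0 ≤ C ∧ ∀ (w : Form M) (x : M) (v : E4),
    |w.1 x v (S.J x v)| ≤ C * S.cN 0 w.1 * S.F.1 x v (S.J x v) := by
  have h := fun i => exists_chart_bound (S.at_.mem_maximal i) S.isJ.1
    (isCompact_closedBall (0 : E4) 3) (S.closedBall3_subset i)
    (fun p a => (contDiffOn_readJ S.isJ (S.at_.mem_maximal i) p a).continuousOn.mono
      (S.closedBall3_subset i))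
    S.F.2.isAltField
    ((S.F.2.contDiffOn_readC (S.at_.mem_maximal i)).continuousOn.mono (S.closedBall3_subset i))
    S.F_pos
  choose C hC0 hC using h
  refine ⟨∑ i, C i, Finset.sum_nonneg fun i _ => hC0 i, fun w x v => ?_⟩
  obtain ⟨i, hi⟩ : ∃ i, S.at_.rho i x ≠ 0 := by
    by_contra hne
    simp only [not_exists, not_not] at hne
    simpa [hne] using S.at_.rho_sum x
  obtain ⟨hxs, hxb⟩ := S.at_.rho_support i (subset_tsupport _ hi)
  have hy : S.at_.chart i x ∈ closedBall (0 : E4) 3 :=
    (ball_subset_closedBall.trans (closedBall_subset_closedBall (by norm_num))) hxb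
  have h1 := hC i w.1 w.2.isAltField _ hy _ (S.read_le_cN (N := 0) i w.2 hy) v
  rw [(S.at_.chart i).left_inv hxs] at h1
  refine h1.trans (mul_le_mul_of_nonneg_right (mul_le_mul_of_nonneg_right
    (Finset.single_le_sum (fun i _ => hC0 i) (Finset.mem_univ i)) (S.cN_nonneg 0 _)) ?_)
  rcases eq_or_ne v 0 with rfl | hv
  · simp [(S.F.2.1 x 0).map_zero, (S.isJ.1 x).map_zero]
  · exact (S.F_pos x v hv).le

/-- step 0: the obstruction current -/
theorem dualSpec : DualSpec S := by
  rintro ⟨N, CL, hlift⟩ hne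
  obtain ⟨CT, hCT0, hCT⟩ := exists_eval_bound S
  have : Nonempty M := by
    by_contra hM
    have : IsEmpty M := not_nonempty_iff.1 hM
    exact hne ⟨S.F.1, ⟨S.F.2, fun x0 => isEmptyElim x0, fun x => isEmptyElim x⟩,
      fun x => isEmptyElim x, fun x => isEmptyElim x⟩
  have hb : ∀ w : Form M, BddAbove (range (evalQ S w)) := fun w => bddAbove_evalQ S (hCT w)
  let closedSub : Submodule ℝ (Form M) :=
    { carrier := {w | IsClosedForm w.1}
      zero_mem' := fun x0 y _ u v q => by simp [formInChart]
      add_mem' := by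
        intro a b ha hb x0 y hy u v q
        have hd : ∀ (w : Form M) p r,
            DifferentiableAt ℝ (fun z => formInChart w.1 x0 z p r) y := fun w p r =>
          ((w.2.2.2 x0 p r).contDiffAt ((isOpen_extChartAt_target x0).mem_nhds hy)).differentiableAt
            (by simp)
        have e : ∀ p r, (fun z => formInChart (a + b : Form M).1 x0 z p r) =
            fun z => formInChart a.1 x0 z p r + formInChart b.1 x0 z p r := fun p r => rfl
        simp only [e, fderiv_fun_add (hd a _ _) (hd b _ _), add_apply]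
        linarith [ha x0 y hy u v q, hb x0 y hy u v q]
      smul_mem' := by
        intro c a ha x0 y hy u v q
        have hd : ∀ p r, DifferentiableAt ℝ (fun z => formInChart a.1 x0 z p r) y := fun p r =>
          ((a.2.2.2 x0 p r).contDiffAt ((isOpen_extChartAt_target x0).mem_nhds hy)).differentiableAt
            (by simp)
        have e : ∀ p r, (fun z => formInChart (c • a : Form M).1 x0 z p r) =
            fun z => c * formInChart a.1 x0 z p r := fun p r => rfl
        simp only [e, fderiv_const_mul (hd _ _), smul_apply, smul_eq_mul]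
        rw [← mul_add, ← mul_add, ha x0 y hy u v q, mul_zero] }
  let Z : Submodule ℝ (Form M) := closedSub ⊓ LinearMap.ker (pmL S.isJ)
  have hZ : ∀ z ∈ Z, 0 ≤ gauge S (-z) := by
    rintro z ⟨hz1, hz2⟩
    by_contra hlt
    have hpos : ∀ x v, v ≠ 0 → 0 < z.1 x v (S.J x v) := fun x v hv => by
      have h := pos_of_gauge_neg S (hb _) (not_le.1 hlt) (x := x) hv
      simpa using h
    refine hne ⟨z.1, ⟨z.2, hz1, fun x u hu => ⟨S.J x u, (hpos x u hu).ne'⟩⟩, hpos, ?_⟩
    intro x u v
    have h : pm S.J z.1 x u v = 0 :=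
      congrFun (congrFun (congrFun (congrArg Subtype.val (LinearMap.mem_ker.1 hz2)) x) u) v
    simp only [pm] at h
    linarith
  obtain ⟨T, hTZ, hTF, -, hTpos, hTabs⟩ :=
    exists_positive_functional (shiftGauge_gauge S hb) Z hZ
  have hTinv : ∀ w η : Form M, η.1 = p11 S.J w.1 → T η = T w := fun w η h => by
    have hbd : ∀ x v, |(η - w).1 x v (S.J x v)| ≤ 0 * S.F.1 x v (S.J x v) := fun x v => by
      have e : (η - w).1 x v (S.J x v) = η.1 x v (S.J x v) - w.1 x v (S.J x v) := rfl
      rw [e, h, apply_J_p11 S w.2.isAltField]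
      simp
    have h1 := hTabs (η - w) 0 (gauge_le S hbd) (gauge_le S fun x v => by
      rw [show (-(η - w)).1 x v (S.J x v) = -((η - w).1 x v (S.J x v)) from rfl, abs_neg]
      exact hbd x v)
    rw [map_sub, abs_le] at h1
    linarith [h1.1, h1.2]
  have hTb : ∀ w : Form M, |T w| ≤ CT * S.cN 0 w.1 := fun w => by
    refine hTabs w _ (gauge_le S (hCT w)) (gauge_le S fun x v => ?_)
    rw [show (-w).1 x v (S.J x v) = -(w.1 x v (S.J x v)) from rfl, abs_neg]
    exact hCT w x v
  obtain ⟨phi, hnull, -, hphi⟩ := exists_complement closedSub LinearMap.id (pmL S.isJ) T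
    (fun w hw h0 => hTZ w ⟨hw, LinearMap.mem_ker.2 h0⟩)
    (fun v => CT * max CL 0 * S.cN N v.1)
    (fun c hc v => by
      rw [show (c • v).1 = c • v.1 from rfl, S.cN_smul N c v.2, abs_of_pos hc]; ring)
    (fun u v => by
      rw [← mul_add]
      exact mul_le_mul_of_nonneg_left (S.cN_add_le N u.2 v.2) (by positivity))
    (fun w hw => by
      obtain ⟨η, hη, he, hb'⟩ := hlift w hw
      refine ⟨η, hη, Subtype.ext he, (hTb η).trans ?_⟩
      rw [mul_assoc]
      refine mul_le_mul_of_nonneg_left (hb'.trans ?_) hCT0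
      exact mul_le_mul_of_nonneg_right (le_max_left _ _) (S.cN_nonneg N _))
  obtain ⟨Cp, hCp0, hCp⟩ := S.exists_cN_pm N
  exact ⟨{
    T := T
    φ := phi.comp (pmL S.isJ)
    T_inv := hTinv
    T_nonneg := fun w _ hw => hTpos w (gauge_neg_nonpos S hw)
    T_unit := hTF
    φ_anti := fun w η h => by
      show phi (pmL S.isJ η) = phi (pmL S.isJ w)
      congr 1
      exact Subtype.ext (by rw [pmL_coe, pmL_coe, h, pm_pm S.isJ w.2.isAltField])
    order := N
    bound := CT + CT * max CL 0 * Cp
    T_bound := fun w => (hTb w).trans <|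
      mul_le_mul_of_nonneg_right (le_add_of_nonneg_right (by positivity)) (S.cN_nonneg 0 _)
    φ_bound := fun w => by
      have h := hphi (pmL S.isJ w)
      rw [show (-(pmL S.isJ w)).1 = -(pmL S.isJ w).1 from rfl, S.cN_neg, max_self, pmL_coe] at h
      refine h.trans ((mul_le_mul_of_nonneg_left (hCp w.1 w.2) (by positivity)).trans ?_)
      rw [← mul_assoc]
      exact mul_le_mul_of_nonneg_right (le_add_of_nonneg_left hCT0) (S.cN_nonneg N _)
    closed_null := fun w hw => hnull w hw }⟩

end Vale.Agent.P204.Full.Dual
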