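import Mathlib

/-!
P204: a functional bounded by a semidefinite square is, up to an error as small as we like, the
pairing with a single element (no completion needed).
-/

namespace Vale.Agent.P204.Full.Dual

variable {V : Type*} [AddCommGroup V] [Module ℝ V]

/-- If `phi v ^ 2 ≤ C * Q v v` then `phi` is `Q v0` up to `eps * sqrt (Q v v)`. -/
theorem exists_split (Q : V →ₗ[ℝ] V →ₗ[ℝ] ℝ) (hsymm : ∀ u v, Q u v = Q v u)
    (hpos : ∀ v, 0 ≤ Q v v) (phi : V →ₗ[ℝ] ℝ) {C : ℝ}
    (hphi : ∀ v, phi v ^ 2 ≤ C * Q v v) {eps : ℝ} (heps : 0 < eps) :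
    ∃ v0, ∀ v, |phi v - Q v0 v| ≤ eps * Real.sqrt (Q v v) := by
  classical
  set J : V → ℝ := fun v => 2 * phi v - Q v v with hJ
  have hJC : ∀ v, J v ≤ max C 0 := fun v => by
    have h1 := hphi v
    have h2 := hpos v
    have h3 : C * Q v v ≤ max C 0 * Q v v := mul_le_mul_of_nonneg_right (le_max_left _ _) h2
    have h4 : (2 * phi v) ^ 2 ≤ (max C 0 + Q v v) ^ 2 := by
      nlinarith [sq_nonneg (max C 0 - Q v v)]
    have h5 := abs_le_of_sq_le_sq h4 (by positivity)
    simp only [hJ]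
    linarith [le_abs_self (2 * phi v)]
  have hbdd : BddAbove (Set.range J) := ⟨max C 0, by rintro _ ⟨v, rfl⟩; exact hJC v⟩
  obtain ⟨_, ⟨v0, rfl⟩, hv0⟩ := exists_lt_of_lt_csSup (Set.range_nonempty J)
    (sub_lt_self (sSup (Set.range J)) (pow_pos heps 2))
  refine ⟨v0, fun v => ?_⟩
  set A := phi v - Q v0 v
  have key : ∀ t : ℝ, 2 * t * A - t ^ 2 * Q v v ≤ eps ^ 2 := fun t => by
    have h1 : J (v0 + t • v) ≤ sSup (Set.range J) := le_csSup hbdd ⟨_, rfl⟩
    have h2 : J (v0 + t • v) = J v0 + (2 * t * A - t ^ 2 * Q v v) := by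
      simp only [hJ, A, map_add, map_smul, LinearMap.add_apply, LinearMap.smul_apply,
        smul_eq_mul, hsymm v v0]
      ring
    linarith
  have hq := hpos v
  rcases hq.lt_or_eq with hq' | hq'
  · have h := key (A / Q v v)
    have e : 2 * (A / Q v v) * A - (A / Q v v) ^ 2 * Q v v = A ^ 2 / Q v v := by
      field_simp
      ring
    rw [e, div_le_iff₀ hq'] at h
    refine abs_le_of_sq_le_sq ?_ (by positivity)
    rw [mul_pow, Real.sq_sqrt hq]
    exact h
  · have hA : A = 0 := by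
      by_contra hA
      have h := key ((eps ^ 2 + 1) / (2 * A))
      rw [← hq', mul_zero, sub_zero] at h
      have e : 2 * ((eps ^ 2 + 1) / (2 * A)) * A = eps ^ 2 + 1 := by field_simp
      linarith
    rw [hA, abs_zero]
    positivity

end Vale.Agent.P204.Full.Dual
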