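import Mathlib

/-!
P204: limits of bounded families of numbers and functionals along an ultrafilter.
-/

namespace Vale.Agent.P204.Full.Dual

open Filter Topology

variable {ι : Type*}

/-- a real family bounded along `l` -/
def EvBdd (l : Ultrafilter ι) (f : ι → ℝ) : Prop := ∃ C, ∀ᶠ i in (l : Filter ι), |f i| ≤ C

/-- the limit along an ultrafilter -/
noncomputable def uLim (l : Ultrafilter ι) (f : ι → ℝ) : ℝ := limUnder (l : Filter ι) f

variable {l : Ultrafilter ι} {f g : ι → ℝ}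

lemma EvBdd.of_le {C : ℝ} (h : ∀ i, |f i| ≤ C) : EvBdd l f := ⟨C, Eventually.of_forall h⟩

theorem tendsto_uLim (h : EvBdd l f) : Tendsto f (l : Filter ι) (𝓝 (uLim l f)) := by
  obtain ⟨C, hC⟩ := h
  have hI : Set.Icc (-C) C ∈ l.map f := by
    rw [Ultrafilter.mem_map]
    filter_upwards [hC] with i hi using abs_le.1 hi
  obtain ⟨x, -, hx⟩ := isCompact_Icc.ultrafilter_le_nhds (l.map f) (le_principal_iff.2 hI)
  have ht : Tendsto f (l : Filter ι) (𝓝 x) := hx
  rwa [uLim, ht.limUnder_eq]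

theorem uLim_eq {a : ℝ} (h : Tendsto f (l : Filter ι) (𝓝 a)) : uLim l f = a := h.limUnder_eq

theorem EvBdd.of_tendsto {a : ℝ} (h : Tendsto f (l : Filter ι) (𝓝 a)) : EvBdd l f :=
  ⟨|a| + 1, (h.abs.eventually (gt_mem_nhds (by linarith))).mono fun _ hi => le_of_lt hi⟩

theorem EvBdd.add (hf : EvBdd l f) (hg : EvBdd l g) : EvBdd l fun i => f i + g i :=
  .of_tendsto ((tendsto_uLim hf).add (tendsto_uLim hg))

theorem EvBdd.const_mul (c : ℝ) (hf : EvBdd l f) : EvBdd l fun i => c * f i :=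
  .of_tendsto ((tendsto_uLim hf).const_mul c)

theorem EvBdd.sub (hf : EvBdd l f) (hg : EvBdd l g) : EvBdd l fun i => f i - g i :=
  .of_tendsto ((tendsto_uLim hf).sub (tendsto_uLim hg))

theorem uLim_add (hf : EvBdd l f) (hg : EvBdd l g) :
    uLim l (fun i => f i + g i) = uLim l f + uLim l g :=
  uLim_eq ((tendsto_uLim hf).add (tendsto_uLim hg))

theorem uLim_sub (hf : EvBdd l f) (hg : EvBdd l g) :
    uLim l (fun i => f i - g i) = uLim l f - uLim l g :=
  uLim_eq ((tendsto_uLim hf).sub (tendsto_uLim hg))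

theorem uLim_const_mul (c : ℝ) (hf : EvBdd l f) : uLim l (fun i => c * f i) = c * uLim l f :=
  uLim_eq ((tendsto_uLim hf).const_mul c)

theorem uLim_const (c : ℝ) : uLim l (fun _ => c) = c := uLim_eq tendsto_const_nhds

theorem uLim_mono (hf : EvBdd l f) (hg : EvBdd l g) (h : ∀ᶠ i in (l : Filter ι), f i ≤ g i) :
    uLim l f ≤ uLim l g :=
  le_of_tendsto_of_tendsto (tendsto_uLim hf) (tendsto_uLim hg) h

theorem uLim_le (hf : EvBdd l f) {C : ℝ} (h : ∀ᶠ i in (l : Filter ι), f i ≤ C) : uLim l f ≤ C :=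
  le_of_tendsto (tendsto_uLim hf) h

theorem le_uLim (hf : EvBdd l f) {C : ℝ} (h : ∀ᶠ i in (l : Filter ι), C ≤ f i) : C ≤ uLim l f :=
  ge_of_tendsto (tendsto_uLim hf) h

theorem abs_uLim_le {C : ℝ} (h : ∀ᶠ i in (l : Filter ι), |f i| ≤ C) : |uLim l f| ≤ C :=
  le_of_tendsto (tendsto_uLim ⟨C, h⟩).abs h

theorem uLim_congr (hf : EvBdd l f) (h : Tendsto (fun i => f i - g i) (l : Filter ι) (𝓝 0)) :
    EvBdd l g ∧ uLim l g = uLim l f := by
  have ht : Tendsto g (l : Filter ι) (𝓝 (uLim l f)) := by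
    simpa using (tendsto_uLim hf).sub h
  exact ⟨.of_tendsto ht, uLim_eq ht⟩

variable {W : Type*} [AddCommGroup W] [Module ℝ W]

/-- the limit of a pointwise bounded family of functionals -/
noncomputable def uLimFun (l : Ultrafilter ι) (S : ι → W →ₗ[ℝ] ℝ)
    (h : ∀ w, EvBdd l fun i => S i w) : W →ₗ[ℝ] ℝ where
  toFun w := uLim l fun i => S i w
  map_add' a b := by
    have e : (fun i => S i (a + b)) = fun i => S i a + S i b := funext fun i => map_add _ _ _
    rw [e, uLim_add (h a) (h b)]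
  map_smul' c a := by
    have e : (fun i => S i (c • a)) = fun i => c * S i a := funext fun i => by simp
    rw [e, uLim_const_mul c (h a)]
    rfl

theorem tendsto_uLimFun (S : ι → W →ₗ[ℝ] ℝ) (h : ∀ w, EvBdd l fun i => S i w) (w : W) :
    Tendsto (fun i => S i w) (l : Filter ι) (𝓝 (uLimFun l S h w)) := tendsto_uLim (h w)

theorem abs_uLimFun_le (S : ι → W →ₗ[ℝ] ℝ) (h : ∀ w, EvBdd l fun i => S i w) {w : W} {C : ℝ}
    (hC : ∀ᶠ i in (l : Filter ι), |S i w| ≤ C) : |uLimFun l S h w| ≤ C := abs_uLim_le hC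

theorem uLimFun_nonneg (S : ι → W →ₗ[ℝ] ℝ) (h : ∀ w, EvBdd l fun i => S i w) {w : W}
    (hw : ∀ᶠ i in (l : Filter ι), 0 ≤ S i w) : 0 ≤ uLimFun l S h w := le_uLim (h w) hw

/-- An ultrafilter converging to `0` from the right. -/
theorem exists_ultrafilter_zero :
    ∃ l : Ultrafilter ℝ, (l : Filter ℝ) ≤ 𝓝[>] (0 : ℝ) :=
  ⟨Ultrafilter.of _, Ultrafilter.of_le _⟩

end Vale.Agent.P204.Full.Dual
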